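import Vale.Agent.P235.ST.H317.Defs

/-! P235, (ST) O(1), row r8: inf-convolution over walks. -/

namespace Vale.Agent.P235.STO.H939

open SimpleGraph

variable {V : Type}

set_option linter.unusedVariables false in
theorem infconv [Finite V] [Nonempty V] {G : SimpleGraph V} (hG : G.Connected)
    (f E w : V → ℝ) (Λ : ℝ) (hΛ : 0 ≤ Λ) (hE : ∀ x, 0 ≤ E x)
    (h : ∀ x y (g : G.Walk x y), |f x - f y| ≤ Λ * cost w g + min (E x) (E y)) :
    ∃ g : V → ℝ, (∀ x, f x ≤ g x ∧ g x ≤ f x + E x) ∧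
      ∀ x y, G.Adj x y → |g x - g y| ≤ Λ * |w x - w y| := by
  set F : (x : V) → (Σ y, G.Walk x y) → ℝ := fun x s => f s.1 + E s.1 + Λ * cost w s.2 with hF
  have lower : ∀ x (s : Σ y, G.Walk x y), f x ≤ F x s := by
    intro x s
    have h1 := h x s.1 s.2
    have h2 := le_abs_self (f x - f s.1)
    have h3 := min_le_right (E x) (E s.1)
    simp only [hF]
    linarith
  have bdd : ∀ x, BddBelow (Set.range (F x)) := fun x => ⟨f x, by
    rintro _ ⟨s, rfl⟩
    exact lower x s⟩
  have ne : ∀ x : V, Nonempty (Σ y, G.Walk x y) := fun x => ⟨⟨x, .nil⟩⟩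
  have step : ∀ x y, G.Adj x y → (⨅ s, F x s) ≤ Λ * |w x - w y| + ⨅ s, F y s := by
    intro x y hxy
    have hy := ne y
    have key : (⨅ s, F x s) - Λ * |w x - w y| ≤ ⨅ s, F y s := by
      refine le_ciInf fun s => ?_
      have h1 : (⨅ s, F x s) ≤ F x ⟨s.1, Walk.cons hxy s.2⟩ := ciInf_le (bdd x) _
      have h2 : F x ⟨s.1, Walk.cons hxy s.2⟩ = F y s + Λ * |w x - w y| := by
        simp only [hF, cost]
        ring
      linarith
    linarith
  refine ⟨fun x => ⨅ s, F x s, fun x => ⟨?_, ?_⟩, fun x y hxy => ?_⟩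
  · have := ne x
    exact le_ciInf fun s => lower x s
  · refine (ciInf_le (bdd x) ⟨x, .nil⟩).trans (le_of_eq ?_)
    simp only [hF, cost]
    ring
  · have h1 := step x y hxy
    have h2 := step y x hxy.symm
    rw [abs_sub_comm (w y) (w x)] at h2
    rw [abs_sub_le_iff]
    constructor <;> linarith

end Vale.Agent.P235.STO.H939
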